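import Mathlib

/-!
# P262: summing the decay of the poor mass over the wide steps
-/

open scoped BigOperators
open Finset

namespace Vale.Agent.P262

variable {Cb : ℝ} {W T : ℕ → ℝ} {wide : ℕ → Bool}

/-- The number of binary steps strictly between two steps. -/
def binGap (wide : ℕ → Bool) (o r : ℕ) : ℕ := ((Ioo o r).filter fun j => wide j = false).card

lemma binGap_succ {o r : ℕ} (h : o < r) :
    binGap wide o (r + 1) = binGap wide o r + if wide r = false then 1 else 0 := by
  have e : Ioo o (r + 1) = insert r (Ioo o r) := by ext; simp; omega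
  rw [binGap, binGap, e, filter_insert]
  split
  · rw [card_insert_of_notMem (by simp)]
  · simp

lemma sum_poorMass_binary (hT0 : T 0 = 0)
    (hT : ∀ j, T (j + 1) = if wide j then T j + Cb * W j else 3 / 4 * T j)
    (hW : ∀ j, wide j = false → W j = 0) (J : ℕ) :
    (∑ j ∈ range J, if wide j then 0 else T j / 4) + T J = Cb * ∑ j ∈ range J, W j := by
  induction J with
  | zero => simp [hT0]
  | succ J ih =>
    rw [sum_range_succ, sum_range_succ, hT J]
    cases h : wide J with
    | true => simp only [if_true]; linarith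
    | false => rw [hW J h]; simp only [Bool.false_eq_true, if_false]; linarith

lemma poorMass_eq (hT0 : T 0 = 0)
    (hT : ∀ j, T (j + 1) = if wide j then T j + Cb * W j else 3 / 4 * T j)
    (hW : ∀ j, wide j = false → W j = 0) (r : ℕ) :
    T r = Cb * ∑ o ∈ range r, W o * (3 / 4 : ℝ) ^ binGap wide o r := by
  induction r with
  | zero => simp [hT0]
  | succ r ih =>
    have e : binGap wide r (r + 1) = 0 := by simp [binGap]
    have e1 : ∀ o ∈ range r, W o * (3 / 4 : ℝ) ^ binGap wide o (r + 1) =
        W o * (3 / 4 : ℝ) ^ binGap wide o r * (if wide r = false then 3 / 4 else 1) := by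
      intro o ho
      rw [binGap_succ (mem_range.1 ho)]
      split <;> ring
    rw [sum_range_succ, e, sum_congr rfl e1, ← sum_mul, hT r, ih]
    cases h : wide r with
    | true => simp; ring
    | false => rw [hW r h]; simp; ring

/-- The binary steps between two wide steps are at least half of all steps between them. -/
lemma two_binGap_ge (hnext : ∀ j, wide j = true → wide (j + 1) = false) {o r : ℕ}
    (ho : wide o = true) (hr : wide r = true) (h : o < r) : r - o ≤ 2 * binGap wide o r := by
  have hinj : ((Ico o r).filter fun j => wide j = true).card ≤ binGap wide o r := by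
    refine card_le_card_of_injOn (· + 1) (fun j hj => ?_)
      (fun x _ y _ hxy => by simpa using hxy)
    rw [mem_coe, mem_filter, mem_Ico] at hj
    have := hnext j hj.2
    have hne : j + 1 ≠ r := fun he => by subst he; simp [hr] at this
    simp only [mem_coe, mem_filter, mem_Ioo]
    exact ⟨⟨by omega, by omega⟩, this⟩
  have hsplit : ((Ico o r).filter fun j => wide j = true).card +
      ((Ico o r).filter fun j => wide j = false).card = r - o := by
    have := card_filter_add_card_filter_not (s := Ico o r) (fun j => wide j = true)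
    simpa using this
  have hb : ((Ico o r).filter fun j => wide j = false).card ≤ binGap wide o r := by
    refine card_le_card fun j hj => ?_
    rw [mem_filter, mem_Ico] at hj
    have hne : j ≠ o := fun he => by subst he; simp [ho] at hj
    rw [mem_filter, mem_Ioo]
    exact ⟨⟨by omega, hj.1.2⟩, hj.2⟩
  omega

/-- Double sums with geometric decay in the index distance. -/
lemma sum_pair_geom_le (hW0 : ∀ j, 0 ≤ W j) {p : ℝ} (hp0 : 0 ≤ p) (hp : p < 1) (J : ℕ) :
    ∑ r ∈ range J, ∑ o ∈ range r, (W o + W r) * p ^ (r - o) ≤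
      2 / (1 - p) * ∑ j ∈ range J, W j := by
  have hgeom : ∀ s : Finset ℕ, ∑ m ∈ s, p ^ m ≤ 1 / (1 - p) := fun s => by
    rw [one_div, ← tsum_geometric_of_lt_one hp0 hp]
    exact (summable_geometric_of_lt_one hp0 hp).sum_le_tsum s fun m _ => pow_nonneg hp0 m
  have h1 : ∑ r ∈ range J, ∑ o ∈ range r, W r * p ^ (r - o) ≤
      ∑ r ∈ range J, W r * (1 / (1 - p)) := sum_le_sum fun r _ => by
    rw [← mul_sum]
    refine mul_le_mul_of_nonneg_left ?_ (hW0 r)
    rw [← sum_image (g := fun o => r - o) (f := fun m => p ^ m) fun x hx y hy hxy => by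
      simp only [coe_range, Set.mem_Iio] at hx hy
      simp only at hxy
      omega]
    exact hgeom _
  have h2 : ∑ r ∈ range J, ∑ o ∈ range r, W o * p ^ (r - o) ≤
      ∑ o ∈ range J, W o * (1 / (1 - p)) := by
    rw [sum_comm' (t' := range J) (s' := fun o => Ioo o J) (fun r o => by
      simp only [mem_range, mem_Ioo]; omega)]
    refine sum_le_sum fun o _ => ?_
    rw [← mul_sum]
    refine mul_le_mul_of_nonneg_left ?_ (hW0 o)
    rw [← sum_image (g := fun r => r - o) (f := fun m => p ^ m) fun x hx y hy hxy => by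
      simp only [coe_Ioo, Set.mem_Ioo] at hx hy
      simp only at hxy
      omega]
    exact hgeom _
  simp only [add_mul, sum_add_distrib]
  rw [← sum_mul] at h1 h2
  have : 2 / (1 - p) * ∑ j ∈ range J, W j = 2 * ((∑ j ∈ range J, W j) * (1 / (1 - p))) := by ring
  linarith

/-- A polynomial times a geometric sequence decays geometrically. -/
lemma sq_mul_pow_le : ∃ K : ℝ, 0 ≤ K ∧ ∀ G : ℕ, (G : ℝ) ^ 2 * (3 / 4) ^ G ≤ K * (9 / 10) ^ G := by
  obtain ⟨K, hK⟩ := (tendsto_pow_const_mul_const_pow_of_lt_one 2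
    (by norm_num : (0 : ℝ) ≤ 5 / 6) (by norm_num)).bddAbove_range
  refine ⟨max K 0, le_max_right _ _, fun G => ?_⟩
  have h : (G : ℝ) ^ 2 * (5 / 6) ^ G ≤ max K 0 :=
    (hK ⟨G, rfl⟩).trans (le_max_left _ _)
  calc (G : ℝ) ^ 2 * (3 / 4) ^ G = (G : ℝ) ^ 2 * (5 / 6) ^ G * (9 / 10) ^ G := by
        rw [mul_assoc, ← mul_pow]; norm_num
    _ ≤ max K 0 * (9 / 10) ^ G := mul_le_mul_of_nonneg_right h (by positivity)

/-- The poor mass at wide steps, weighted by their masses, is linear in the total mass when the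
wide steps are separated. -/
lemma sum_wide_poorMass_le {c K : ℝ} (hCb : 0 ≤ Cb) (hT0 : T 0 = 0)
    (hT : ∀ j, T (j + 1) = if wide j then T j + Cb * W j else 3 / 4 * T j)
    (hW : ∀ j, wide j = false → W j = 0) (hW0 : ∀ j, 0 ≤ W j)
    (hnext : ∀ j, wide j = true → wide (j + 1) = false) (hK0 : 0 ≤ K)
    (hK : ∀ G : ℕ, (G : ℝ) ^ 2 * (3 / 4) ^ G ≤ K * (9 / 10) ^ G)
    (hsep : ∀ o r, o < r → wide o = true → wide r = true →
      Real.sqrt (min (W o) (W r)) ≤ c * binGap wide o r) (J : ℕ) :
    ∑ r ∈ range J, W r * T r ≤ Cb * (c ^ 2 * K * 40) * ∑ j ∈ range J, W j := by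
  have key : ∀ o r, o < r → W r * (W o * (3 / 4 : ℝ) ^ binGap wide o r) ≤
      c ^ 2 * K * ((W o + W r) * (19 / 20) ^ (r - o)) := by
    intro o r hor
    have hsum : 0 ≤ (W o + W r) * (19 / 20 : ℝ) ^ (r - o) :=
      mul_nonneg (add_nonneg (hW0 o) (hW0 r)) (by positivity)
    have hR : 0 ≤ c ^ 2 * K * ((W o + W r) * (19 / 20) ^ (r - o)) :=
      mul_nonneg (mul_nonneg (sq_nonneg c) hK0) hsum
    cases ho : wide o with
    | false => exact le_of_eq_of_le (by simp [hW o ho]) hR
    | true =>
    cases hr : wide r with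
    | false => exact le_of_eq_of_le (by simp [hW r hr]) hR
    | true =>
    set G := binGap wide o r with hG
    have h1 := hsep o r hor ho hr
    have h2 : min (W o) (W r) ≤ c ^ 2 * (G : ℝ) ^ 2 := by
      rw [← mul_pow, ← Real.sq_sqrt (le_min (hW0 o) (hW0 r))]
      exact pow_le_pow_left₀ (Real.sqrt_nonneg _) h1 2
    have h3 : W r * W o ≤ (W o + W r) * (c ^ 2 * (G : ℝ) ^ 2) := by
      rw [mul_comm (W r), ← min_mul_max (W o) (W r), mul_comm (W o + W r)]
      refine mul_le_mul h2 (max_le ?_ ?_) (le_max_of_le_left (hW0 o))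
        (mul_nonneg (sq_nonneg _) (sq_nonneg _)) <;> linarith [hW0 o, hW0 r]
    have h5 : (9 / 10 : ℝ) ^ G ≤ (19 / 20) ^ (r - o) := by
      calc (9 / 10 : ℝ) ^ G ≤ ((19 / 20) ^ 2) ^ G :=
            pow_le_pow_left₀ (by norm_num) (by norm_num) G
        _ = (19 / 20) ^ (2 * G) := by rw [pow_mul]
        _ ≤ (19 / 20) ^ (r - o) :=
            pow_le_pow_of_le_one (by norm_num) (by norm_num) (two_binGap_ge hnext ho hr hor)
    calc W r * (W o * (3 / 4 : ℝ) ^ G) = W r * W o * (3 / 4) ^ G := by ring
      _ ≤ (W o + W r) * (c ^ 2 * (G : ℝ) ^ 2) * (3 / 4) ^ G :=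
          mul_le_mul_of_nonneg_right h3 (by positivity)
      _ = (W o + W r) * c ^ 2 * ((G : ℝ) ^ 2 * (3 / 4) ^ G) := by ring
      _ ≤ (W o + W r) * c ^ 2 * (K * (19 / 20) ^ (r - o)) :=
          mul_le_mul_of_nonneg_left ((hK G).trans (mul_le_mul_of_nonneg_left h5 hK0))
            (mul_nonneg (add_nonneg (hW0 o) (hW0 r)) (sq_nonneg c))
      _ = _ := by ring
  calc ∑ r ∈ range J, W r * T r
      = Cb * ∑ r ∈ range J, ∑ o ∈ range r, W r * (W o * (3 / 4 : ℝ) ^ binGap wide o r) := by
        simp only [mul_sum]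
        refine sum_congr rfl fun r _ => ?_
        rw [poorMass_eq hT0 hT hW r, mul_sum, mul_sum]
        exact sum_congr rfl fun o _ => by ring
    _ ≤ Cb * ∑ r ∈ range J, ∑ o ∈ range r,
          c ^ 2 * K * ((W o + W r) * (19 / 20 : ℝ) ^ (r - o)) :=
        mul_le_mul_of_nonneg_left
          (sum_le_sum fun r _ => sum_le_sum fun o ho => key o r (mem_range.1 ho)) hCb
    _ ≤ Cb * (c ^ 2 * K * (2 / (1 - 19 / 20) * ∑ j ∈ range J, W j)) := by
        simp only [← mul_sum]
        exact mul_le_mul_of_nonneg_left (mul_le_mul_of_nonneg_left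
          (sum_pair_geom_le hW0 (by norm_num) (by norm_num) J)
          (mul_nonneg (sq_nonneg c) hK0)) hCb
    _ = _ := by norm_num; ring

end Vale.Agent.P262
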