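import Mathlib

/-!
# P262: the load of a level

The load of level `l` is the sum of `(g i / 2 ^ l) ^ (-1/16)` over the coordinates with
`1 ≤ g i / 2 ^ l`. It is small at good levels and its total over all levels is linear in the
dimension.
-/

open scoped BigOperators
open Finset Real

namespace Vale.Agent.P262

/-- The load of one coordinate. -/
noncomputable def loadTerm (x : ℝ) : ℝ := if 1 ≤ x then x ^ (-(1 / 16) : ℝ) else 0

/-- The total load of level `l`. -/
noncomputable def load {d : ℕ} (g : Fin d → ℝ) (l : ℕ) : ℝ := ∑ i, loadTerm (g i / 2 ^ l)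

lemma loadTerm_nonneg (x : ℝ) : 0 ≤ loadTerm x := by
  unfold loadTerm
  split
  · exact rpow_nonneg (by linarith) _
  · rfl

lemma load_nonneg {d : ℕ} (g : Fin d → ℝ) (l : ℕ) : 0 ≤ load g l :=
  sum_nonneg fun _ _ => loadTerm_nonneg _

/-- Total load of one coordinate over all levels. -/
lemma sum_loadTerm_le : ∃ K : ℝ, 1 ≤ K ∧
    ∀ (M : ℕ) (x : ℝ), ∑ l ∈ range M, loadTerm (x / 2 ^ l) ≤ K := by
  set r : ℝ := (2 : ℝ) ^ (-(1 / 16) : ℝ) with hr
  have hr0 : 0 < r := rpow_pos_of_pos two_pos _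
  have hr1 : r < 1 := rpow_lt_one_of_one_lt_of_neg one_lt_two (by norm_num)
  have hc0 : 0 < 1 / r - 1 := sub_pos.2 ((one_lt_div hr0).2 hr1)
  set c := 1 / (1 / r - 1) with hc
  have hcpos : 0 < c := one_div_pos.2 hc0
  have hle : ∀ x : ℝ, 1 ≤ x → x ^ (-(1 / 16) : ℝ) ≤ 1 := fun x hx =>
    rpow_le_one_of_one_le_of_nonpos hx (by norm_num)
  have hbound : ∀ (M : ℕ) (x : ℝ), 1 ≤ x →
      ∑ l ∈ range M, loadTerm (x / 2 ^ l) ≤ 1 + c - c * x ^ (-(1 / 16) : ℝ) := by
    intro M
    induction M with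
    | zero =>
      intro x hx
      simp only [range_zero, sum_empty]
      have := mul_le_mul_of_nonneg_left (hle x hx) hcpos.le
      linarith
    | succ M ih =>
      intro x hx
      rw [sum_range_succ', pow_zero, div_one, loadTerm, if_pos hx]
      have he : ∀ l : ℕ, x / 2 ^ (l + 1) = x / 2 / 2 ^ l := fun l => by
        rw [pow_succ, div_div, mul_comm]
      simp only [he]
      rcases le_or_gt 1 (x / 2) with h | h
      · have hx2 : (x / 2) ^ (-(1 / 16) : ℝ) = x ^ (-(1 / 16) : ℝ) / r := by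
          rw [div_rpow (by linarith) two_pos.le]
        have := ih (x / 2) h
        rw [hx2] at this
        have e : c * (x ^ (-(1 / 16) : ℝ) / r) =
            c * x ^ (-(1 / 16) : ℝ) + c * (1 / r - 1) * x ^ (-(1 / 16) : ℝ) := by ring
        rw [e, hc, one_div_mul_cancel hc0.ne', one_mul, ← hc] at this
        linarith
      · have h0 : ∑ l ∈ range M, loadTerm (x / 2 / 2 ^ l) = 0 := sum_eq_zero fun l _ => by
          rw [loadTerm, if_neg]
          rw [not_le, div_lt_one (by positivity)]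
          exact h.trans_le (one_le_pow₀ one_le_two)
        rw [h0]
        have := mul_le_mul_of_nonneg_left (hle x hx) hcpos.le
        have := hle x hx
        linarith
  refine ⟨1 + c, by linarith, fun M x => ?_⟩
  rcases le_or_gt 1 x with hx | hx
  · have := hbound M x hx
    have := mul_nonneg hcpos.le (rpow_nonneg (by linarith : 0 ≤ x) (-(1 / 16) : ℝ))
    linarith
  · have h0 : ∑ l ∈ range M, loadTerm (x / 2 ^ l) = 0 := sum_eq_zero fun l _ => by
      rw [loadTerm, if_neg]
      rw [not_le, div_lt_one (by positivity)]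
      exact hx.trans_le (one_le_pow₀ one_le_two)
    rw [h0]
    linarith

/-- The levels with positive load are bounded. -/
lemma load_eventually_zero {d : ℕ} (g : Fin d → ℝ) : ∃ L : ℕ, ∀ l, L ≤ l → load g l = 0 := by
  obtain ⟨L, hL⟩ := pow_unbounded_of_one_lt (∑ i, |g i|) (one_lt_two : (1 : ℝ) < 2)
  refine ⟨L, fun l hl => sum_eq_zero fun i _ => ?_⟩
  rw [loadTerm, if_neg]
  rw [not_le, div_lt_one (by positivity)]
  calc g i ≤ |g i| := le_abs_self _
    _ ≤ ∑ k, |g k| := single_le_sum (f := fun k => |g k|) (fun k _ => abs_nonneg _) (mem_univ i)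
    _ < 2 ^ L := hL
    _ ≤ 2 ^ l := pow_le_pow_right₀ one_le_two hl

/-- Few coordinates are below `x` at a level of small load. -/
lemma card_filter_le_load {d : ℕ} (g : Fin d → ℝ) (l : ℕ) (A : Finset (Fin d)) {x : ℝ}
    (hA : ∀ i ∈ A, 1 ≤ g i / 2 ^ l ∧ g i / 2 ^ l ≤ x) :
    (A.card : ℝ) ≤ load g l * x ^ (1 / 16 : ℝ) := by
  rcases A.eq_empty_or_nonempty with rfl | ⟨i, hi⟩
  · simp only [card_empty, Nat.cast_zero]
    rcases le_or_gt 0 x with hx | hx
    · exact mul_nonneg (load_nonneg _ _) (rpow_nonneg hx _)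
    · have h0 : load g l = 0 ∨ 0 < load g l := (load_nonneg g l).eq_or_lt.imp Eq.symm id
      rcases h0 with h0 | h0
      · simp [h0]
      · rw [rpow_def_of_neg hx]
        have hc : 0 ≤ cos (1 / 16 * π) := cos_nonneg_of_mem_Icc
          ⟨by linarith [pi_pos], by linarith [pi_pos]⟩
        exact mul_nonneg h0.le (mul_nonneg (exp_pos _).le hc)
  have hx : 0 < x := by linarith [(hA i hi).1.trans (hA i hi).2]
  have key : ∀ j ∈ A, x ^ (-(1 / 16) : ℝ) ≤ loadTerm (g j / 2 ^ l) := fun j hj => by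
    rw [loadTerm, if_pos (hA j hj).1]
    exact rpow_le_rpow_of_nonpos (by linarith [(hA j hj).1]) (hA j hj).2 (by norm_num)
  have h1 : (A.card : ℝ) * x ^ (-(1 / 16) : ℝ) ≤ load g l :=
    calc (A.card : ℝ) * x ^ (-(1 / 16) : ℝ) = ∑ _j ∈ A, x ^ (-(1 / 16) : ℝ) := by simp
      _ ≤ ∑ j ∈ A, loadTerm (g j / 2 ^ l) := sum_le_sum key
      _ ≤ load g l :=
        sum_le_sum_of_subset_of_nonneg (subset_univ A) fun j _ _ => loadTerm_nonneg _
  rw [rpow_neg hx.le, ← div_eq_mul_inv, div_le_iff₀ (rpow_pos_of_pos hx _)] at h1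
  exact h1

end Vale.Agent.P262
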