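import Mathlib

/-!
# P262: families of intervals of levels

An interval `(s, e)` stands for a wide step from level `s` to level `e`. A family of intervals
covering a finite set of levels can be chosen so that two intervals are far apart compared with
the square root of the smaller mass.
-/

open scoped BigOperators
open Finset

namespace Vale.Agent.P262

/-- The mass of an interval under weights `a`. -/
noncomputable def mass (a : ℕ → ℝ) (p : ℕ × ℕ) : ℝ := ∑ l ∈ Icc p.1 p.2, a l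

/-- The cost of an interval. -/
noncomputable def cost (a : ℕ → ℝ) (p : ℕ × ℕ) : ℝ := mass a p + 4 * Real.sqrt (mass a p)

/-- A family of intervals with interiors covering `bad`, starting at zero. -/
structure Family (bad : Finset ℕ) (F : Finset (ℕ × ℕ)) : Prop where
  width : ∀ p ∈ F, p.1 + 2 ≤ p.2
  disj : ∀ p ∈ F, ∀ q ∈ F, p ≠ q → p.2 < q.1 ∨ q.2 < p.1
  cover : ∀ l ∈ bad, 1 ≤ l → ∃ p ∈ F, p.1 < l ∧ l < p.2
  start : ∃ e, (0, e) ∈ F
  right_good : ∀ p ∈ F, p.2 ∉ bad

/-- The levels strictly between two intervals that lie on no interval. -/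
def free (F : Finset (ℕ × ℕ)) (p q : ℕ × ℕ) : Finset ℕ :=
  (Ioo p.2 q.1).filter fun l => ∀ r ∈ F, ¬(r.1 ≤ l ∧ l ≤ r.2)

lemma Family.disjoint_Icc {bad : Finset ℕ} {F : Finset (ℕ × ℕ)} (hF : Family bad F) :
    (F : Set (ℕ × ℕ)).PairwiseDisjoint fun p => Icc p.1 p.2 := fun p hp q hq hne => by
  refine disjoint_left.2 fun l hl hl' => ?_
  rw [mem_Icc] at hl hl'
  rcases hF.disj p hp q hq hne with h | h <;> omega

lemma Family.sum_Icc_le {bad : Finset ℕ} {F : Finset (ℕ × ℕ)} (hF : Family bad F) {h : ℕ → ℝ}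
    (h0 : ∀ l, 0 ≤ h l) {K : ℝ} (hK : ∀ M, ∑ l ∈ range M, h l ≤ K) :
    ∑ p ∈ F, ∑ l ∈ Icc p.1 p.2, h l ≤ K := by
  rw [← sum_biUnion hF.disjoint_Icc]
  obtain ⟨M, hM⟩ := Finset.exists_nat_subset_range (F.biUnion fun p => Icc p.1 p.2)
  exact (sum_le_sum_of_subset_of_nonneg hM fun l _ _ => h0 l).trans (hK M)

/-- An initial family, with total interior at most twice the covered set. -/
lemma exists_family (bad : Finset ℕ) : ∃ F, Family bad F ∧
    ∑ p ∈ F, (((Icc p.1 p.2).card : ℕ) : ℝ) ≤ 6 * ((bad.card : ℝ) + 1) := by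
  classical
  set B := insert 1 (bad.filter (1 ≤ ·)) with hBdef
  set X := B ∪ (B.image (· + 1)).filter (fun l => l + 1 ∈ B) with hXdef
  have hB1 : ∀ l ∈ B, 1 ≤ l := fun l hl => by
    rcases mem_insert.1 hl with rfl | hl
    · rfl
    · exact (mem_filter.1 hl).2
  have hX1 : ∀ l ∈ X, 1 ≤ l := fun l hl => by
    rcases mem_union.1 hl with hl | hl
    · exact hB1 l hl
    · obtain ⟨k, -, rfl⟩ := mem_image.1 (mem_filter.1 hl).1
      omega
  have hsep : ∀ l, l ∈ X → l + 2 ∈ X → l + 1 ∈ X := by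
    intro l h1 h2
    rcases mem_union.1 h1 with b1 | b1
    · rcases mem_union.1 h2 with b2 | b2
      · exact mem_union_right _ (mem_filter.2 ⟨mem_image_of_mem _ b1, b2⟩)
      · obtain ⟨k, hk, hk'⟩ := mem_image.1 (mem_filter.1 b2).1
        obtain rfl : k = l + 1 := by omega
        exact mem_union_left _ hk
    · exact mem_union_left _ (mem_filter.1 b1).2
  have hXcard : X.card ≤ 2 * (bad.card + 1) := by
    have h1 : B.card ≤ bad.card + 1 :=
      (card_insert_le _ _).trans (Nat.add_le_add_right (card_filter_le _ _) 1)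
    have h2 : ((B.image (· + 1)).filter (fun l => l + 1 ∈ B)).card ≤ B.card :=
      (card_filter_le _ _).trans card_image_le
    exact (card_union_le _ _).trans (by omega)
  set F := ((range (X.sup id + 2)) ×ˢ (range (X.sup id + 2))).filter
    (fun p : ℕ × ℕ => p.1 + 2 ≤ p.2 ∧ p.1 ∉ X ∧ p.2 ∉ X ∧
      ∀ l ∈ Ioo p.1 p.2, l ∈ X) with hFdef
  have hmem : ∀ p ∈ F, p.1 + 2 ≤ p.2 ∧ p.1 ∉ X ∧ p.2 ∉ X ∧ ∀ l ∈ Ioo p.1 p.2, l ∈ X :=
    fun p hp => (mem_filter.1 hp).2
  have hcov : ∀ l ∈ X, ∃ p ∈ F, p.1 < l ∧ l < p.2 := by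
    intro l hl
    have hs0 : (0 : ℕ) ∉ X := fun h => by simpa using hX1 0 h
    set s := Nat.findGreatest (fun k => k ∉ X) l with hs
    have hs1 : s ∉ X := Nat.findGreatest_spec (P := fun k => k ∉ X) (Nat.zero_le l) hs0
    have hsl : s ≤ l := Nat.findGreatest_le l
    have hslt : s < l := lt_of_le_of_ne hsl fun h => hs1 (h ▸ hl)
    have hN : ∀ k, X.sup id < k → k ∉ X := fun k hk h =>
      absurd (le_sup (f := id) h) (by simpa using hk)
    have hex : ∃ k, l < k ∧ k ∉ X :=
      ⟨X.sup id + 1, Nat.lt_succ_of_le (le_sup (f := id) hl), hN _ (Nat.lt_succ_self _)⟩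
    obtain ⟨he1, he2⟩ := Nat.find_spec hex
    have hele : Nat.find hex ≤ X.sup id + 1 :=
      Nat.find_min' hex ⟨Nat.lt_succ_of_le (le_sup (f := id) hl), hN _ (Nat.lt_succ_self _)⟩
    refine ⟨(s, Nat.find hex), mem_filter.2 ⟨mem_product.2 ⟨mem_range.2 (by omega),
      mem_range.2 (by omega)⟩, by omega, hs1, he2, fun k hk => ?_⟩, hslt, he1⟩
    rw [mem_Ioo] at hk
    by_contra hkX
    rcases le_or_gt k l with hkl | hkl
    · exact absurd (Nat.le_findGreatest (P := fun k => k ∉ X) hkl hkX) (by omega)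
    · exact Nat.find_min hex hk.2 ⟨hkl, hkX⟩
  have hdisj : ∀ p ∈ F, ∀ q ∈ F, p ≠ q → p.2 < q.1 ∨ q.2 < p.1 := by
    have key : ∀ p ∈ F, ∀ q ∈ F, p.1 < q.1 → p.2 < q.1 := by
      intro p hp q hq hlt
      obtain ⟨pw, -, p2, pi⟩ := hmem p hp
      obtain ⟨qw, q1, -, qi⟩ := hmem q hq
      rcases lt_trichotomy p.2 q.1 with h | h | h
      · exact h
      · exfalso
        refine p2 ?_
        have := hsep (p.2 - 1) (pi _ (mem_Ioo.2 ⟨by omega, by omega⟩))
          (qi _ (mem_Ioo.2 ⟨by omega, by omega⟩))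
        rwa [show p.2 - 1 + 1 = p.2 by omega] at this
      · exact absurd (pi _ (mem_Ioo.2 ⟨hlt, h⟩)) q1
    intro p hp q hq hne
    rcases lt_trichotomy p.1 q.1 with h | h | h
    · exact Or.inl (key p hp q hq h)
    · exfalso
      apply hne
      obtain ⟨pw, -, p2, pi⟩ := hmem p hp
      obtain ⟨qw, -, q2, qi⟩ := hmem q hq
      refine Prod.ext h ?_
      rcases lt_trichotomy p.2 q.2 with h' | h' | h'
      · exact absurd (qi _ (mem_Ioo.2 ⟨by omega, h'⟩)) p2
      · exact h'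
      · exact absurd (pi _ (mem_Ioo.2 ⟨by omega, h'⟩)) q2
    · exact Or.inr (key q hq p hp h)
  refine ⟨F, ⟨fun p hp => (hmem p hp).1, hdisj, fun l hl h1 => ?_, ?_, fun p hp hb => ?_⟩, ?_⟩
  · exact hcov l (mem_union_left _ (mem_insert_of_mem (mem_filter.2 ⟨hl, h1⟩)))
  · obtain ⟨⟨s, e⟩, hp, h1, -⟩ := hcov 1 (mem_union_left _ (mem_insert_self _ _))
    obtain rfl : s = 0 := by omega
    exact ⟨e, hp⟩
  · obtain ⟨pw, -, p2, -⟩ := hmem p hp
    exact p2 (mem_union_left _ (mem_insert_of_mem (mem_filter.2 ⟨hb, by omega⟩)))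
  · have hd' : (F : Set (ℕ × ℕ)).PairwiseDisjoint fun p => Ioo p.1 p.2 := fun p hp q hq hne => by
      refine disjoint_left.2 fun l hl hl' => ?_
      rw [mem_Ioo] at hl hl'
      rcases hdisj p hp q hq hne with h | h <;> omega
    have hsum : ∑ p ∈ F, (Ioo p.1 p.2).card ≤ X.card := by
      rw [← card_biUnion hd']
      exact card_le_card fun l hl => by
        obtain ⟨p, hp, hl⟩ := mem_biUnion.1 hl
        exact (hmem p hp).2.2.2 l hl
    have h3 : ∑ p ∈ F, (Icc p.1 p.2).card ≤ 3 * X.card := by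
      refine le_trans (sum_le_sum fun p hp => ?_)
        ((mul_sum F (fun p => (Ioo p.1 p.2).card) 3).symm.trans_le (Nat.mul_le_mul_left 3 hsum))
      have := (hmem p hp).1
      rw [Nat.card_Icc, Nat.card_Ioo]
      omega
    have h4 : ∑ p ∈ F, (Icc p.1 p.2).card ≤ 6 * (bad.card + 1) := by omega
    exact_mod_cast h4

lemma sqrt_sum_le {ι : Type*} (s : Finset ι) (f : ι → ℝ) (h : ∀ i ∈ s, 0 ≤ f i) :
    Real.sqrt (∑ i ∈ s, f i) ≤ ∑ i ∈ s, Real.sqrt (f i) := by
  rw [Real.sqrt_le_left (sum_nonneg fun i _ => Real.sqrt_nonneg _)]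
  calc ∑ i ∈ s, f i = ∑ i ∈ s, Real.sqrt (f i) ^ 2 :=
        sum_congr rfl fun i hi => (Real.sq_sqrt (h i hi)).symm
    _ ≤ (∑ i ∈ s, Real.sqrt (f i)) ^ 2 := sum_sq_le_sq_sum_of_nonneg fun i _ => Real.sqrt_nonneg _

lemma sqrt_pair_le {x y : ℝ} (hy : 0 < y) (h : y ≤ x) :
    Real.sqrt (x + y) ≤ Real.sqrt x + Real.sqrt y / 2 := by
  have hx : 0 ≤ x := hy.le.trans h
  rw [Real.sqrt_le_left (by positivity)]
  nlinarith [Real.sq_sqrt hx, Real.sq_sqrt hy.le, Real.sqrt_le_sqrt h, Real.sqrt_nonneg y,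
    Real.sqrt_nonneg x]

/-- A covering family of small mass whose intervals are well separated. -/
lemma exists_separated (bad : Finset ℕ) (a : ℕ → ℝ) {c : ℝ} (ha : ∀ l, 4 ≤ a l)
    (hc : ∀ l, 1 ≤ l → l ∉ bad → a l ≤ c) {F₀ : Finset (ℕ × ℕ)} (hF₀ : Family bad F₀) :
    ∃ F, Family bad F ∧ ∑ p ∈ F, mass a p ≤ 3 * ∑ p ∈ F₀, mass a p ∧
      ∀ p ∈ F, ∀ q ∈ F, p.2 < q.1 →
        Real.sqrt (min (mass a p) (mass a q)) ≤ c * (free F p q).card := by
  classical
  have hm4 : ∀ p : ℕ × ℕ, p.1 + 2 ≤ p.2 → 4 ≤ mass a p := fun p hp =>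
    (ha p.1).trans (single_le_sum (fun l _ => by linarith [ha l]) (left_mem_Icc.2 (by omega)))
  have hm0 : ∀ p, 0 ≤ mass a p := fun p => sum_nonneg fun l _ => by linarith [ha l]
  set T := ∑ p ∈ F₀, cost a p with hT
  have hex : ∃ k, ∃ F, Family bad F ∧ ∑ p ∈ F, cost a p ≤ T ∧ F.card = k :=
    ⟨_, F₀, hF₀, le_rfl, rfl⟩
  obtain ⟨F, hF, hFT, hFk⟩ := Nat.find_spec hex
  refine ⟨F, hF, ?_, ?_⟩
  · calc ∑ p ∈ F, mass a p ≤ ∑ p ∈ F, cost a p :=
          sum_le_sum fun p _ => by have := Real.sqrt_nonneg (mass a p); unfold cost; linarith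
      _ ≤ ∑ p ∈ F₀, cost a p := hFT
      _ ≤ ∑ p ∈ F₀, 3 * mass a p := sum_le_sum fun p hp => by
          have h4 := hm4 p (hF₀.width p hp)
          have : Real.sqrt (mass a p) ≤ mass a p / 2 := by
            rw [Real.sqrt_le_left (by linarith)]; nlinarith
          unfold cost; linarith
      _ = 3 * ∑ p ∈ F₀, mass a p := by rw [mul_sum]
  intro p hp q hq hpq
  by_contra hlt
  rw [not_le] at hlt
  have hpw := hF.width p hp
  have hqw := hF.width q hq
  set inside := F.filter (fun r => p.1 ≤ r.1 ∧ r.2 ≤ q.2) with hin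
  set new : ℕ × ℕ := (p.1, q.2) with hnew
  have hcontain : ∀ r ∈ F, ¬(p.1 ≤ r.1 ∧ r.2 ≤ q.2) → r.2 < p.1 ∨ q.2 < r.1 := by
    intro r hr hn
    have hrw := hF.width r hr
    have hrp : r ≠ p := fun h => hn (by subst h; omega)
    have hrq : r ≠ q := fun h => hn (by subst h; omega)
    rcases hF.disj r hr p hp hrp with h | h
    · exact Or.inl h
    rcases hF.disj r hr q hq hrq with h' | h'
    · exact absurd ⟨by omega, by omega⟩ hn
    · exact Or.inr h'
  set F' := insert new (F \ inside) with hF'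
  have hout : ∀ r ∈ F \ inside, r.2 < p.1 ∨ q.2 < r.1 := fun r hr =>
    hcontain r (mem_sdiff.1 hr).1 fun h => (mem_sdiff.1 hr).2 (mem_filter.2 ⟨(mem_sdiff.1 hr).1, h⟩)
  have hnotin : new ∉ F \ inside := fun h => by
    rcases hout new h with h' | h' <;> simp [hnew] at h' <;> omega
  have hfam : Family bad F' := by
    refine ⟨fun r hr => ?_, fun r hr r' hr' hne => ?_, fun l hl h1 => ?_, ?_, fun r hr => ?_⟩
    · rcases mem_insert.1 hr with rfl | hr
      · simp only [hnew]; omega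
      · exact hF.width r (mem_sdiff.1 hr).1
    · rcases mem_insert.1 hr with rfl | hr <;> rcases mem_insert.1 hr' with rfl | hr'
      · exact absurd rfl hne
      · exact (hout r' hr').symm
      · exact hout r hr
      · exact hF.disj r (mem_sdiff.1 hr).1 r' (mem_sdiff.1 hr').1 hne
    · obtain ⟨r, hr, h2, h3⟩ := hF.cover l hl h1
      by_cases hi : r ∈ inside
      · obtain ⟨-, h4, h5⟩ := mem_filter.1 hi
        exact ⟨new, mem_insert_self _ _, by simp [hnew]; omega, by simp [hnew]; omega⟩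
      · exact ⟨r, mem_insert_of_mem (mem_sdiff.2 ⟨hr, hi⟩), h2, h3⟩
    · obtain ⟨e, he⟩ := hF.start
      by_cases hi : ((0, e) : ℕ × ℕ) ∈ inside
      · obtain ⟨-, h4, -⟩ := mem_filter.1 hi
        exact ⟨q.2, mem_insert.2 (Or.inl (Prod.ext (by simp [hnew] at h4 ⊢; omega) rfl))⟩
      · exact ⟨e, mem_insert_of_mem (mem_sdiff.2 ⟨he, hi⟩)⟩
    · rcases mem_insert.1 hr with rfl | hr
      · exact hF.right_good q hq
      · exact hF.right_good r (mem_sdiff.1 hr).1
  have hsub : inside ⊆ F := filter_subset _ _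
  have hpi : p ∈ inside := mem_filter.2 ⟨hp, le_rfl, by omega⟩
  have hqi : q ∈ inside := mem_filter.2 ⟨hq, by omega, le_rfl⟩
  have hpne : q ≠ p := fun h => by subst h; omega
  have hqi' : q ∈ inside.erase p := mem_erase.2 ⟨hpne, hqi⟩
  have hcard : F'.card < F.card := by
    have h2 : 2 ≤ inside.card := one_lt_card.2 ⟨p, hpi, q, hqi, hpne.symm⟩
    rw [hF', card_insert_of_notMem hnotin, card_sdiff_of_subset hsub]
    have := card_le_card hsub
    omega
  have hmass : mass a new ≤ ∑ r ∈ inside, mass a r + c * (free F p q).card := by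
    have hcov : Icc p.1 q.2 ⊆ (inside.biUnion fun r => Icc r.1 r.2) ∪ free F p q := by
      intro l hl
      rw [mem_Icc] at hl
      rw [mem_union, mem_biUnion]
      by_cases hex : ∃ r ∈ F, r.1 ≤ l ∧ l ≤ r.2
      · obtain ⟨r, hr, h1, h2⟩ := hex
        refine Or.inl ⟨r, mem_filter.2 ⟨hr, ?_⟩, mem_Icc.2 ⟨h1, h2⟩⟩
        by_contra hn
        rcases hcontain r hr hn with h | h <;> omega
      · push Not at hex
        refine Or.inr (mem_filter.2 ⟨mem_Ioo.2 ⟨?_, ?_⟩, fun r hr h => ?_⟩)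
        · have := hex p hp hl.1; omega
        · by_contra hh
          exact absurd hl.2 (not_le.2 (hex q hq (by omega)))
        · exact absurd h.2 (not_le.2 (hex r hr h.1))
    have hdj : (inside : Set (ℕ × ℕ)).PairwiseDisjoint fun r => Icc r.1 r.2 :=
      hF.disjoint_Icc.subset (coe_subset.2 hsub)
    calc mass a new ≤ ∑ l ∈ (inside.biUnion fun r => Icc r.1 r.2) ∪ free F p q, a l :=
          sum_le_sum_of_subset_of_nonneg hcov fun l _ _ => by linarith [ha l]
      _ ≤ ∑ l ∈ inside.biUnion (fun r => Icc r.1 r.2), a l + ∑ l ∈ free F p q, a l := by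
          rw [← sum_union_inter]
          linarith [sum_nonneg fun l (_ : l ∈ (inside.biUnion fun r => Icc r.1 r.2) ∩ free F p q) =>
            (by linarith [ha l] : (0 : ℝ) ≤ a l)]
      _ ≤ ∑ r ∈ inside, mass a r + c * (free F p q).card := by
          refine add_le_add (le_of_eq (sum_biUnion hdj)) ?_
          rw [mul_comm]
          refine (sum_le_card_nsmul _ _ c fun l hl => ?_).trans_eq (nsmul_eq_mul _ _)
          obtain ⟨hl1, hl2⟩ := mem_filter.1 hl
          rw [mem_Ioo] at hl1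
          refine hc l (by omega) fun hb => ?_
          obtain ⟨r, hr, h1, h2⟩ := hF.cover l hb (by omega)
          exact hl2 r hr ⟨h1.le, h2.le⟩
  have hc0 : 0 ≤ c * ((free F p q).card : ℝ) := by
    rcases Nat.eq_zero_or_pos (free F p q).card with h | h
    · simp [h]
    · obtain ⟨l, hl⟩ := card_pos.1 h
      obtain ⟨hl1, hl2⟩ := mem_filter.1 hl
      rw [mem_Ioo] at hl1
      have hcl : a l ≤ c := hc l (by omega) fun hb => by
        obtain ⟨r, hr, h1, h2⟩ := hF.cover l hb (by omega)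
        exact hl2 r hr ⟨h1.le, h2.le⟩
      exact mul_nonneg (by linarith [ha l]) (Nat.cast_nonneg _)
  set δ := c * ((free F p q).card : ℝ)
  set R := (inside.erase p).erase q with hR
  have hdec : ∀ h : ℕ × ℕ → ℝ, ∑ r ∈ inside, h r = h p + h q + ∑ r ∈ R, h r := fun h => by
    rw [← add_sum_erase _ h hpi, ← add_sum_erase _ h hqi']
    ring
  have hcost : cost a new ≤ ∑ r ∈ inside, cost a r := by
    set S := ∑ r ∈ inside, mass a r with hS
    have hS4 : 4 ≤ S := (hm4 p hpw).trans (single_le_sum (fun r _ => hm0 r) hpi)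
    have h2 : 2 ≤ Real.sqrt S := Real.le_sqrt_of_sq_le (by linarith)
    have h3 : Real.sqrt (mass a new) ≤ Real.sqrt S + δ / 4 := by
      rw [Real.sqrt_le_left (by positivity)]
      nlinarith [Real.sq_sqrt (by linarith : 0 ≤ S), mul_le_mul_of_nonneg_left h2 hc0]
    have hpair : Real.sqrt (mass a p + mass a q) ≤ Real.sqrt (mass a p) + Real.sqrt (mass a q) -
        Real.sqrt (min (mass a p) (mass a q)) / 2 := by
      rcases le_total (mass a q) (mass a p) with h | h
      · have := sqrt_pair_le (by linarith [hm4 q hqw]) h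
        rw [min_eq_right h]; linarith
      · have := sqrt_pair_le (by linarith [hm4 p hpw]) h
        rw [min_eq_left h, add_comm (mass a p)]; linarith
    have hsq : Real.sqrt S ≤ ∑ r ∈ inside, Real.sqrt (mass a r) -
        Real.sqrt (min (mass a p) (mass a q)) / 2 := by
      rw [hS, hdec (mass a), hdec fun r => Real.sqrt (mass a r)]
      have e1 : Real.sqrt (mass a p + mass a q + ∑ r ∈ R, mass a r) ≤
          Real.sqrt (mass a p + mass a q) + Real.sqrt (∑ r ∈ R, mass a r) := by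
        have := sqrt_sum_le (univ : Finset Bool)
          (fun b => if b then mass a p + mass a q else ∑ r ∈ R, mass a r) (fun b _ => by
            cases b
            · exact sum_nonneg fun r _ => hm0 r
            · exact add_nonneg (hm0 p) (hm0 q))
        simpa using this
      have e2 := sqrt_sum_le R (mass a) fun r _ => hm0 r
      linarith
    have hsum : ∑ r ∈ inside, cost a r = S + 4 * ∑ r ∈ inside, Real.sqrt (mass a r) := by
      simp only [cost, sum_add_distrib, ← mul_sum, hS]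
    rw [hsum, cost]
    linarith
  refine Nat.find_min hex (hFk ▸ hcard) ⟨F', hfam, ?_, rfl⟩
  rw [hF', sum_insert hnotin]
  have := sum_sdiff (f := cost a) hsub
  linarith

end Vale.Agent.P262
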