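import Mathlib
import Vale.Agent.P262.Schedule.Family

/-!
# P262: the levels visited by a family of intervals
-/

open scoped BigOperators
open Finset

namespace Vale.Agent.P262

/-- The level after `l`: the right end of an interval starting at `l`, else `l + 1`. -/
noncomputable def nextLev (F : Finset (ℕ × ℕ)) (l : ℕ) : ℕ :=
  open Classical in if h : ∃ e, (l, e) ∈ F then h.choose else l + 1

/-- The levels visited by the steps of a family. -/
noncomputable def walk (F : Finset (ℕ × ℕ)) : ℕ → ℕ
  | 0 => 0
  | j + 1 => nextLev F (walk F j)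

/-- Whether step `j` of the walk is wide. -/
noncomputable def walkWide (F : Finset (ℕ × ℕ)) (j : ℕ) : Bool :=
  decide (1 < walk F (j + 1) - walk F j)

namespace Family

variable {bad : Finset ℕ} {F : Finset (ℕ × ℕ)}

lemma next_of_mem (hF : Family bad F) {l e : ℕ} (h : (l, e) ∈ F) : nextLev F l = e := by
  have hex : ∃ e, (l, e) ∈ F := ⟨e, h⟩
  rw [nextLev, dif_pos hex]
  by_contra hne
  have hh := hex.choose_spec
  have h1 := hF.width _ h
  have h2 := hF.width _ hh
  simp only at h1 h2
  rcases hF.disj _ hh _ h (fun he => hne (Prod.mk.inj he).2) with h' | h' <;>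
    simp only at h' <;> omega

lemma next_of_not (l : ℕ) (h : ∀ e, (l, e) ∉ F) : nextLev F l = l + 1 := by
  rw [nextLev, dif_neg fun ⟨e, he⟩ => h e he]

lemma lt_next (hF : Family bad F) (l : ℕ) : l < nextLev F l := by
  by_cases h : ∃ e, (l, e) ∈ F
  · obtain ⟨e, he⟩ := h
    have := hF.width _ he
    rw [hF.next_of_mem he]
    simp only at this
    omega
  · push Not at h
    rw [next_of_not l h]
    omega

lemma walk_strictMono (hF : Family bad F) : StrictMono (walk F) :=
  strictMono_nat_of_lt_succ fun j => hF.lt_next (walk F j)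

lemma le_walk (hF : Family bad F) (j : ℕ) : j ≤ walk F j := hF.walk_strictMono.id_le j

/-- The walk never enters the interior of an interval. -/
lemma walk_out (hF : Family bad F) (j : ℕ) : ∀ r ∈ F, ¬(r.1 < walk F j ∧ walk F j < r.2) := by
  induction j with
  | zero => intro r _ h; simp [walk] at h
  | succ j ih =>
    intro r hr h
    rw [walk] at h
    by_cases hp : ∃ e, (walk F j, e) ∈ F
    · obtain ⟨e, he⟩ := hp
      rw [hF.next_of_mem he] at h
      have h1 := hF.width _ he
      have hne : r ≠ (walk F j, e) := fun h' => by subst h'; simp only at h; omega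
      rcases hF.disj r hr _ he hne with h' | h' <;> simp only at h' h1 <;> omega
    · push Not at hp
      rw [next_of_not _ hp] at h
      by_cases hh : r.1 = walk F j
      · exact hp r.2 (by rw [← hh]; exact hr)
      · exact ih r hr ⟨by omega, by omega⟩

lemma walk_good (hF : Family bad F) {j : ℕ} (hj : 0 < j) : walk F j ∉ bad := fun hb => by
  obtain ⟨r, hr, h⟩ := hF.cover _ hb (hj.trans_le (hF.le_walk j))
  exact hF.walk_out j r hr h

lemma wide_iff_mem (hF : Family bad F) (j : ℕ) :
    walkWide F j = true ↔ (walk F j, walk F (j + 1)) ∈ F := by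
  rw [walkWide, decide_eq_true_iff, walk]
  by_cases hp : ∃ e, (walk F j, e) ∈ F
  · obtain ⟨e, he⟩ := hp
    have := hF.width _ he
    simp only at this
    rw [hF.next_of_mem he]
    exact ⟨fun _ => he, fun _ => by omega⟩
  · push Not at hp
    rw [next_of_not _ hp]
    exact ⟨fun h => by omega, fun h => absurd h (hp _)⟩

lemma wide_zero (hF : Family bad F) : walkWide F 0 = true := by
  obtain ⟨e, he⟩ := hF.start
  rw [hF.wide_iff_mem, show walk F 1 = nextLev F 0 from rfl, show walk F 0 = 0 from rfl,
    hF.next_of_mem he]
  exact he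

lemma wide_next (hF : Family bad F) {j : ℕ} (h : walkWide F j = true) :
    walkWide F (j + 1) = false := by
  rw [hF.wide_iff_mem] at h
  by_contra hc
  rw [Bool.not_eq_false, hF.wide_iff_mem] at hc
  have h1 := hF.width _ h
  simp only at h1
  rcases hF.disj _ h _ hc (fun he => by
    have := (Prod.mk.inj he).1
    omega) with h' | h' <;> simp only at h'
  · omega
  · have := hF.width _ hc
    simp only at this
    omega

lemma eventually_binary (hF : Family bad F) : ∃ J, ∀ j, J ≤ j → walkWide F j = false := by
  refine ⟨F.sup (fun p => p.1) + 1, fun j hj => ?_⟩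
  by_contra hc
  rw [Bool.not_eq_false, hF.wide_iff_mem] at hc
  have h1 : walk F j ≤ F.sup fun p => p.1 := le_sup (f := fun p : ℕ × ℕ => p.1) hc
  have := hF.le_walk j
  omega

/-- A free level between two wide steps is visited by a binary step between them. -/
lemma free_card_le (hF : Family bad F) {o r : ℕ} :
    (free F (walk F o, walk F (o + 1)) (walk F r, walk F (r + 1))).card ≤
      ((Ioo o r).filter fun j => walkWide F j = false).card := by
  refine (card_le_card fun l hl => ?_).trans (card_image_le (f := walk F))
  obtain ⟨hl1, hl2⟩ := mem_filter.1 hl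
  rw [mem_Ioo] at hl1
  simp only at hl1
  set j := Nat.findGreatest (fun k => walk F k ≤ l) l with hj
  have h0 : walk F 0 ≤ l := by simp [walk]
  have hjl : walk F j ≤ l := Nat.findGreatest_spec (P := fun k => walk F k ≤ l) (Nat.zero_le l) h0
  have hnext : l < walk F (j + 1) := by
    by_contra hc
    rw [not_lt] at hc
    have hle : j + 1 ≤ l := (hF.le_walk (j + 1)).trans hc
    have := Nat.le_findGreatest (P := fun k => walk F k ≤ l) hle hc
    omega
  have hbin : walkWide F j = false := by
    by_contra hc
    rw [Bool.not_eq_false, hF.wide_iff_mem] at hc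
    exact hl2 _ hc ⟨hjl, hnext.le⟩
  have heq : walk F j = l := by
    rw [walkWide, decide_eq_false_iff_not] at hbin
    omega
  have h1 : o + 1 < j := hF.walk_strictMono.lt_iff_lt.1 (by omega)
  have h2 : j < r := hF.walk_strictMono.lt_iff_lt.1 (by omega)
  exact mem_image.2 ⟨j, mem_filter.2 ⟨mem_Ioo.2 ⟨by omega, h2⟩, hbin⟩, heq⟩

end Family

end Vale.Agent.P262
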